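import Vale.Agent.Helper29.KTVG.Deg
import Vale.Agent.Helper13.SwitchChain

/-!
# Switch chain on general graphs (problem P335): the block heat bath

The class of a graph for the label off the four slots between `{u,v}` and `{w,z}` is
the graph itself, together with its switched graph when the block carries an alternating
4-cycle.  Consequence: the energy of the block heat bath is a quarter of the block switch
energy (part (a) of `KTVG.BlockStmt`).
-/

namespace KTVG.H29

open Finset Vale.Agent.Helper13.Switch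
open Classical

variable {n : ℕ}

theorem Rbet_block_iff (u v w z x y : Fin n) :
    Rbet {u, v} {w, z} x y ↔
      ((x = u ∨ x = v) ∧ (y = w ∨ y = z)) ∨ ((x = w ∨ x = z) ∧ (y = u ∨ y = v)) := by
  simp [Rbet]

theorem labB_eq_iff (u v w z : Fin n) (G G' : SimpleGraph (Fin n)) :
    labB u v w z G = labB u v w z G' ↔
      ∀ x y, ¬ Rbet {u, v} {w, z} x y → (G.Adj x y ↔ G'.Adj x y) := by
  unfold labB
  exact slotLab_eq_iff _ _ _

theorem labB_swap (u v w z : Fin n) : labB u v z w = labB u v w z := by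
  unfold labB
  rw [Finset.pair_comm z w]

theorem D4_swap {u v w z : Fin n} (h : D4 u v w z) : D4 u v z w := by
  obtain ⟨huv, huw, huz, hvw, hvz, hwz⟩ := h
  exact ⟨huv, huz, huw, hvz, hvw, hwz.symm⟩

/-- two graphs with the same block label and the same four block slots are equal -/
theorem eq_of_labB_of_block {u v w z : Fin n} {G1 G2 : SimpleGraph (Fin n)}
    (hl : labB u v w z G1 = labB u v w z G2)
    (h1 : G1.Adj u w ↔ G2.Adj u w) (h2 : G1.Adj u z ↔ G2.Adj u z)
    (h3 : G1.Adj v w ↔ G2.Adj v w) (h4 : G1.Adj v z ↔ G2.Adj v z) : G1 = G2 := by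
  ext x y
  by_cases hR : Rbet {u, v} {w, z} x y
  · rw [Rbet_block_iff] at hR
    rcases hR with ⟨rfl | rfl, rfl | rfl⟩ | ⟨rfl | rfl, rfl | rfl⟩
    · exact h1
    · exact h2
    · exact h3
    · exact h4
    · rw [G1.adj_comm, G2.adj_comm]; exact h1
    · rw [G1.adj_comm, G2.adj_comm]; exact h3
    · rw [G1.adj_comm, G2.adj_comm]; exact h2
    · rw [G1.adj_comm, G2.adj_comm]; exact h4
  · exact (labB_eq_iff u v w z G1 G2).1 hl x y hR

/-- the block slots of the switched graph -/
theorem switch_block_adj {u v w z : Fin n} (h4 : D4 u v w z) (G : SimpleGraph (Fin n)) :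
    ¬ (switchGraph G u w z v).Adj u w ∧ (switchGraph G u w z v).Adj u z ∧
      (switchGraph G u w z v).Adj v w ∧ ¬ (switchGraph G u w z v).Adj v z := by
  obtain ⟨huv, huw, huz, hvw, hvz, hwz⟩ := h4
  have huv' := huv.symm
  have huw' := huw.symm
  have huz' := huz.symm
  have hvw' := hvw.symm
  have hvz' := hvz.symm
  have hwz' := hwz.symm
  refine ⟨?_, ?_, ?_, ?_⟩
  · rw [switchGraph_adj]; simp [*]
  · rw [switchGraph_adj]; simp [*]
  · rw [switchGraph_adj]; simp [*]
  · rw [switchGraph_adj]; simp [*]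

/-- an allowed block switch stays in the class of the block label, stays in `gOmega`
and moves the graph -/
theorem switch_block_left {d : Fin n → ℕ} {G : SimpleGraph (Fin n)} (hG : G ∈ gOmega n d)
    {u v w z : Fin n} (h4 : D4 u v w z) (hA : Allowed G u w z v) :
    switchGraph G u w z v ∈ gOmega n d ∧
      labB u v w z (switchGraph G u w z v) = labB u v w z G ∧ switchGraph G u w z v ≠ G := by
  obtain ⟨huv, huw, huz, hvw, hvz, hwz⟩ := h4
  refine ⟨?_, ?_, switchGraph_ne hA huw huz huv hwz hvw.symm hvz.symm⟩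
  · rw [mem_gOmega]
    intro i
    rw [degree_switch hA huw huz huv hwz hvw.symm hvz.symm i]
    exact mem_gOmega.1 hG i
  · rw [labB_eq_iff]
    intro x y hxy
    rw [Rbet_block_iff] at hxy
    rw [switchGraph_adj]
    constructor
    · rintro (⟨h, _, _⟩ | ⟨h, _⟩)
      · exact h
      · exfalso
        apply hxy
        rcases h with (⟨rfl, rfl⟩ | ⟨rfl, rfl⟩) | (⟨rfl, rfl⟩ | ⟨rfl, rfl⟩) <;> simp
    · intro h
      left
      refine ⟨h, ?_, ?_⟩
      · rintro (⟨rfl, rfl⟩ | ⟨rfl, rfl⟩) <;> exact hxy (by simp)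
      · rintro (⟨rfl, rfl⟩ | ⟨rfl, rfl⟩) <;> exact hxy (by simp)

/-- the block relation stays in the class of the block label -/
theorem swBrel_class {d : Fin n → ℕ} {G G' : SimpleGraph (Fin n)} (hG : G ∈ gOmega n d)
    {u v w z : Fin n} (h4 : D4 u v w z) (h : SwBrel u v w z G G') :
    G' ∈ gOmega n d ∧ labB u v w z G' = labB u v w z G ∧ G' ≠ G := by
  rcases h with ⟨hA, rfl⟩ | ⟨hA, rfl⟩
  · exact switch_block_left hG h4 hA
  · have := switch_block_left hG (D4_swap h4) hA
    rw [labB_swap] at this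
    exact this

/-- a graph of `gOmega` in the block class of `G`, different from `G`, is the block
switch of `G` -/
theorem swBrel_of_class {d : Fin n → ℕ} {G G' : SimpleGraph (Fin n)} (hG : G ∈ gOmega n d)
    (hG' : G' ∈ gOmega n d) {u v w z : Fin n} (h4 : D4 u v w z)
    (hl : labB u v w z G' = labB u v w z G) (hne : G' ≠ G) : SwBrel u v w z G G' := by
  have h4' := h4
  obtain ⟨huv, huw, huz, hvw, hvz, hwz⟩ := h4
  have hag := (labB_eq_iff u v w z G G').1 hl.symm
  -- margins of the block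
  have e1 := adjN_pair_eq hG hG' u hwz (fun y hyw hyz => hag u y (by
    rw [Rbet_block_iff]; simp [hyw, hyz, huw, huz]))
  have e2 := adjN_pair_eq hG hG' v hwz (fun y hyw hyz => hag v y (by
    rw [Rbet_block_iff]; simp [hyw, hyz, hvw, hvz]))
  have e3 := adjN_pair_eq hG hG' w huv (fun y hyu hyv => hag w y (by
    rw [Rbet_block_iff]; simp [hyu, hyv, huw.symm, hvw.symm]))
  have e4 := adjN_pair_eq hG hG' z huv (fun y hyu hyv => hag z y (by
    rw [Rbet_block_iff]; simp [hyu, hyv, huz.symm, hvz.symm]))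
  rw [adjN_comm G w u, adjN_comm G w v, adjN_comm G' w u, adjN_comm G' w v] at e3
  rw [adjN_comm G z u, adjN_comm G z v, adjN_comm G' z u, adjN_comm G' z v] at e4
  have b1 := adjN_le_one G u w
  have b2 := adjN_le_one G u z
  have b3 := adjN_le_one G v w
  have b4 := adjN_le_one G v z
  have b1' := adjN_le_one G' u w
  have b2' := adjN_le_one G' u z
  have b3' := adjN_le_one G' v w
  have b4' := adjN_le_one G' v z
  -- the blocks differ
  have hdiff : ¬ (adjN G u w = adjN G' u w ∧ adjN G u z = adjN G' u z ∧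
      adjN G v w = adjN G' v w ∧ adjN G v z = adjN G' v z) := by
    rintro ⟨c1, c2, c3, c4⟩
    exact hne (eq_of_labB_of_block hl (adj_iff_of_adjN_eq c1.symm) (adj_iff_of_adjN_eq c2.symm)
      (adj_iff_of_adjN_eq c3.symm) (adj_iff_of_adjN_eq c4.symm))
  have hcases : (adjN G u w = 1 ∧ adjN G u z = 0 ∧ adjN G v w = 0 ∧ adjN G v z = 1 ∧
        adjN G' u w = 0 ∧ adjN G' u z = 1 ∧ adjN G' v w = 1 ∧ adjN G' v z = 0) ∨
      (adjN G u w = 0 ∧ adjN G u z = 1 ∧ adjN G v w = 1 ∧ adjN G v z = 0 ∧
        adjN G' u w = 1 ∧ adjN G' u z = 0 ∧ adjN G' v w = 0 ∧ adjN G' v z = 1) := by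
    omega
  rcases hcases with ⟨g1, g2, g3, g4, g1', g2', g3', g4'⟩ | ⟨g1, g2, g3, g4, g1', g2', g3', g4'⟩
  · -- G has uw, vz; G' has uz, vw
    have hA : Allowed G u w z v :=
      ⟨(adjN_eq_one_iff G u w).1 g1, ((adjN_eq_one_iff G v z).1 g4).symm,
        (adjN_eq_zero_iff G u z).1 g2, fun h => (adjN_eq_zero_iff G v w).1 g3 h.symm⟩
    left
    refine ⟨hA, ?_⟩
    obtain ⟨s1, s2, s3, s4⟩ := switch_block_adj h4' G
    have hl2 := (switch_block_left hG h4' hA).2.1
    refine eq_of_labB_of_block (hl.trans hl2.symm) ?_ ?_ ?_ ?_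
    · exact ⟨fun h => absurd h ((adjN_eq_zero_iff G' u w).1 g1'), fun h => absurd h s1⟩
    · exact ⟨fun _ => s2, fun _ => (adjN_eq_one_iff G' u z).1 g2'⟩
    · exact ⟨fun _ => s3, fun _ => (adjN_eq_one_iff G' v w).1 g3'⟩
    · exact ⟨fun h => absurd h ((adjN_eq_zero_iff G' v z).1 g4'), fun h => absurd h s4⟩
  · -- G has uz, vw; G' has uw, vz
    have h4s := D4_swap h4'
    have hA : Allowed G u z w v :=
      ⟨(adjN_eq_one_iff G u z).1 g2, ((adjN_eq_one_iff G v w).1 g3).symm,
        (adjN_eq_zero_iff G u w).1 g1, fun h => (adjN_eq_zero_iff G v z).1 g4 h.symm⟩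
    right
    refine ⟨hA, ?_⟩
    obtain ⟨s1, s2, s3, s4⟩ := switch_block_adj h4s G
    have hl2 := (switch_block_left hG h4s hA).2.1
    rw [labB_swap] at hl2
    refine eq_of_labB_of_block (hl.trans hl2.symm) ?_ ?_ ?_ ?_
    · exact ⟨fun _ => s2, fun _ => (adjN_eq_one_iff G' u w).1 g1'⟩
    · exact ⟨fun h => absurd h ((adjN_eq_zero_iff G' u z).1 g2'), fun h => absurd h s1⟩
    · exact ⟨fun h => absurd h ((adjN_eq_zero_iff G' v w).1 g3'), fun h => absurd h s4⟩
    · exact ⟨fun _ => s3, fun _ => (adjN_eq_one_iff G' v z).1 g4'⟩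

/-- the block relation has at most one target -/
theorem swBrel_unique {G G1 G2 : SimpleGraph (Fin n)} {u v w z : Fin n}
    (h1 : SwBrel u v w z G G1) (h2 : SwBrel u v w z G G2) : G1 = G2 := by
  rcases h1 with ⟨hA, rfl⟩ | ⟨hA, rfl⟩ <;> rcases h2 with ⟨hA', rfl⟩ | ⟨hA', rfl⟩
  · rfl
  · exact absurd hA.1 hA'.2.2.1
  · exact absurd hA'.1 hA.2.2.1
  · rfl

/-- the class of the block label: the graph itself and its block switch (if any) -/
theorem labB_class {d : Fin n → ℕ} {G : SimpleGraph (Fin n)} (hG : G ∈ gOmega n d)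
    {u v w z : Fin n} (h4 : D4 u v w z)
    [DecidablePred fun y => labB u v w z y = labB u v w z G]
    [DecidablePred (SwBrel u v w z G)] :
    (gOmega n d).filter (fun y => labB u v w z y = labB u v w z G)
      = insert G ((gOmega n d).filter (SwBrel u v w z G)) := by
  ext G'
  simp only [mem_filter, mem_insert]
  constructor
  · rintro ⟨hG', hl⟩
    by_cases hne : G' = G
    · left; exact hne
    · right; exact ⟨hG', swBrel_of_class hG hG' h4 hl hne⟩
  · rintro (rfl | ⟨hG', hS⟩)
    · exact ⟨hG, rfl⟩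
    · exact ⟨hG', (swBrel_class hG h4 hS).2.1⟩

theorem swBrel_filter_card_le_one (d : Fin n → ℕ) (G : SimpleGraph (Fin n)) (u v w z : Fin n)
    [DecidablePred (SwBrel u v w z G)] :
    ((gOmega n d).filter (SwBrel u v w z G)).card ≤ 1 := by
  rw [Finset.card_le_one]
  intro a ha b hb
  rw [mem_filter] at ha hb
  exact swBrel_unique ha.2 hb.2

/-- the class of the block label, as an equivalence -/
theorem labB_class_iff {d : Fin n → ℕ} {G : SimpleGraph (Fin n)} (hG : G ∈ gOmega n d)
    {u v w z : Fin n} (h4 : D4 u v w z) (H : SimpleGraph (Fin n)) :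
    (H ∈ gOmega n d ∧ labB u v w z H = labB u v w z G) ↔ (H = G ∨ SwBrel u v w z G H) := by
  constructor
  · rintro ⟨hH, hl⟩
    by_cases hne : H = G
    · left; exact hne
    · right; exact swBrel_of_class hG hH h4 hl hne
  · rintro (rfl | hS)
    · exact ⟨hG, rfl⟩
    · exact ⟨(swBrel_class hG h4 hS).1, (swBrel_class hG h4 hS).2.1⟩

/-- the block relation is symmetric on `gOmega` -/
theorem swBrel_symm {d : Fin n → ℕ} {G G' : SimpleGraph (Fin n)} (hG : G ∈ gOmega n d)
    {u v w z : Fin n} (h4 : D4 u v w z) (h : SwBrel u v w z G G') : SwBrel u v w z G' G := by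
  obtain ⟨hG', hl, hne⟩ := swBrel_class hG h4 h
  exact swBrel_of_class hG' hG h4 hl.symm (Ne.symm hne)

/-- an alternating 4-cycle on the block is the same as an allowed block switch -/
theorem swB_iff_allowed (u v w z : Fin n) (G : SimpleGraph (Fin n)) :
    SwB u v w z G ↔ Allowed G u w z v ∨ Allowed G u z w v := by
  unfold SwB Allowed
  constructor
  · rintro (⟨a, b, c, e⟩ | ⟨a, b, c, e⟩)
    · left; exact ⟨a, b.symm, c, fun h => e h.symm⟩
    · right; exact ⟨a, b.symm, c, fun h => e h.symm⟩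
  · rintro (⟨a, b, c, e⟩ | ⟨a, b, c, e⟩)
    · left; exact ⟨a, b.symm, c, fun h => e h.symm⟩
    · right; exact ⟨a, b.symm, c, fun h => e h.symm⟩

theorem swB_iff_exists (u v w z : Fin n) (G : SimpleGraph (Fin n)) :
    SwB u v w z G ↔ ∃ G', SwBrel u v w z G G' := by
  rw [swB_iff_allowed]
  unfold SwBrel
  constructor
  · rintro (h | h)
    · exact ⟨_, Or.inl ⟨h, rfl⟩⟩
    · exact ⟨_, Or.inr ⟨h, rfl⟩⟩
  · rintro ⟨G', ⟨h, _⟩ | ⟨h, _⟩⟩
    · exact Or.inl h
    · exact Or.inr h

/-- the source of a block switch carries an alternating 4-cycle -/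
theorem swB_of_swBrel {u v w z : Fin n} {G G' : SimpleGraph (Fin n)}
    (h : SwBrel u v w z G G') : SwB u v w z G :=
  (swB_iff_exists u v w z G).2 ⟨G', h⟩

/-- the target of a block switch carries an alternating 4-cycle -/
theorem swB_of_swBrel_right {d : Fin n → ℕ} {G G' : SimpleGraph (Fin n)} (hG : G ∈ gOmega n d)
    {u v w z : Fin n} (h4 : D4 u v w z) (h : SwBrel u v w z G G') : SwB u v w z G' :=
  swB_of_swBrel (swBrel_symm hG h4 h)

/-- the pointwise identity behind part (a), for arbitrary decidability instances -/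
theorem block_pointwise {d : Fin n → ℕ} {G : SimpleGraph (Fin n)} (hG : G ∈ gOmega n d)
    {u v w z : Fin n} (h4 : D4 u v w z) (f : SimpleGraph (Fin n) → ℝ)
    (i1 : DecidablePred fun y => labB u v w z y = labB u v w z G)
    (i2 : DecidablePred (SwBrel u v w z G)) :
    (f G - (∑ y ∈ @Finset.filter _ (fun y => labB u v w z y = labB u v w z G) i1 (gOmega n d),
        f y) / ((@Finset.filter _ (fun y => labB u v w z y = labB u v w z G) i1
          (gOmega n d)).card : ℝ)) ^ 2
      = 1 / 4 * ∑ y ∈ @Finset.filter _ (SwBrel u v w z G) i2 (gOmega n d), (f G - f y) ^ 2 := by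
  rw [@labB_class n d G hG u v w z h4 i1 i2]
  have hnot : G ∉ @Finset.filter _ (SwBrel u v w z G) i2 (gOmega n d) := by
    intro h
    rw [mem_filter] at h
    exact (swBrel_class hG h4 h.2).2.2 rfl
  rw [sum_insert hnot, card_insert_of_notMem hnot]
  rcases Finset.eq_empty_or_nonempty (@Finset.filter _ (SwBrel u v w z G) i2 (gOmega n d))
    with he | ⟨G', hG'⟩
  · rw [he]; simp
  · have hS : @Finset.filter _ (SwBrel u v w z G) i2 (gOmega n d) = {G'} := by
      refine Finset.eq_singleton_iff_unique_mem.2 ⟨hG', fun b hb => ?_⟩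
      rw [mem_filter] at hb hG'
      exact swBrel_unique hb.2 hG'.2
    rw [hS]
    simp only [sum_singleton, card_singleton]
    push_cast
    ring

/-- **`BlockStmt`, part (a)**: the energy of the block heat bath is a quarter of the
block switch energy. -/
theorem blockStmt_a (d : Fin n → ℕ) (u v w z : Fin n) (h4 : D4 u v w z)
    (f : SimpleGraph (Fin n) → ℝ) :
    ∑ G ∈ gOmega n d, (f G - KTV.cexpL (gOmega n d) (labB u v w z) f G) ^ 2
      = (1 / 4 : ℝ) * swD (gOmega n d) u v w z f := by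
  unfold swD KTV.dirichlet
  rw [mul_sum]
  refine sum_congr rfl fun G hG => ?_
  unfold KTV.cexpL
  exact block_pointwise hG h4 f _ _

end KTVG.H29
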