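import Vale.Agent.Helper16.KTV.Defs

/-!
# Commutation of two conditional expectations from a rectangle property

Two labels `l`, `l'` on a finite set `Ω`, and an event `A` which is a union of classes of
both.  If for every `x` in `A`, every `y1` in the `l`-class of `x` and every `y2` in the
`l'`-class of `x` there is exactly one point in the `l'`-class of `y1` and the `l`-class of
`y2`, then the two conditional expectations commute at every point of `A`.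
-/

namespace KTVG

open Finset

section Rect

variable {X Λ Λ' : Type*}

/-- the sum over the `l'`-class of `y1` as a sum over the `l'`-class of `x` -/
theorem rect_sum_class {Ω : Finset X} {l : X → Λ} {l' : X → Λ'} {A : X → Prop}
    (hA1 : ∀ x ∈ Ω, ∀ y ∈ Ω, l x = l y → A x → A y)
    (hA2 : ∀ x ∈ Ω, ∀ y ∈ Ω, l' x = l' y → A x → A y)
    (hrect : ∀ x ∈ Ω, A x → ∀ y1 ∈ Ω, l y1 = l x → ∀ y2 ∈ Ω, l' y2 = l' x →
      ∃! y, y ∈ Ω ∧ l' y = l' y1 ∧ l y = l y2)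
    {x : X} (hx : x ∈ Ω) (hAx : A x) (ρ : X → X → X)
    (hρ : ∀ y1 ∈ Ω, l y1 = l x → ∀ y2 ∈ Ω, l' y2 = l' x →
      ρ y1 y2 ∈ Ω ∧ l' (ρ y1 y2) = l' y1 ∧ l (ρ y1 y2) = l y2)
    {y1 : X} (hy1 : y1 ∈ Ω) (hl1 : l y1 = l x) (F : X → ℝ) :
    by classical exact
    ∑ t ∈ Ω.filter (fun t => l' t = l' y1), F t
      = ∑ y2 ∈ Ω.filter (fun y2 => l' y2 = l' x), F (ρ y1 y2) := by
  classical
  symm
  refine Finset.sum_bij (fun y2 _ => ρ y1 y2) ?_ ?_ ?_ ?_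
  · intro y2 hy2
    rw [Finset.mem_filter] at hy2 ⊢
    obtain ⟨h1, h2, _⟩ := hρ y1 hy1 hl1 y2 hy2.1 hy2.2
    exact ⟨h1, h2⟩
  · -- injective
    intro y2 hy2 y2' hy2' heq
    rw [Finset.mem_filter] at hy2 hy2'
    obtain ⟨_, _, h3⟩ := hρ y1 hy1 hl1 y2 hy2.1 hy2.2
    obtain ⟨_, _, h3'⟩ := hρ y1 hy1 hl1 y2' hy2'.1 hy2'.2
    have hll : l y2 = l y2' := by rw [← h3, ← h3', heq]
    have hA2y : A y2 := hA2 x hx y2 hy2.1 hy2.2.symm hAx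
    obtain ⟨c, _, hcu⟩ := hrect y2 hy2.1 hA2y y2 hy2.1 rfl y2' hy2'.1 (by rw [hy2'.2, hy2.2])
    have e1 : y2 = c := hcu y2 ⟨hy2.1, rfl, hll⟩
    have e2 : y2' = c := hcu y2' ⟨hy2'.1, by rw [hy2'.2, hy2.2], rfl⟩
    rw [e1, e2]
  · -- surjective
    intro t ht
    rw [Finset.mem_filter] at ht
    have hA1y : A y1 := hA1 x hx y1 hy1 hl1.symm hAx
    obtain ⟨c, ⟨hcΩ, hc1, hc2⟩, _⟩ := hrect y1 hy1 hA1y x hx hl1.symm t ht.1 ht.2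
    refine ⟨c, ?_, ?_⟩
    · rw [Finset.mem_filter]; exact ⟨hcΩ, hc1⟩
    · obtain ⟨d, _, hdu⟩ := hrect x hx hAx y1 hy1 hl1 c hcΩ hc1
      have e1 : ρ y1 c = d := hdu _ (hρ y1 hy1 hl1 c hcΩ hc1)
      have e2 : t = d := hdu t ⟨ht.1, ht.2, hc2.symm⟩
      rw [e1, e2]
  · intro y2 _; rfl

/-- **Rectangle lemma**: commutation of the two conditional expectations on `A`. -/
theorem cexpL_comm_of_rect (Ω : Finset X) (l : X → Λ) (l' : X → Λ') (A : X → Prop)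
    (hA1 : ∀ x ∈ Ω, ∀ y ∈ Ω, l x = l y → A x → A y)
    (hA2 : ∀ x ∈ Ω, ∀ y ∈ Ω, l' x = l' y → A x → A y)
    (hrect : ∀ x ∈ Ω, A x → ∀ y1 ∈ Ω, l y1 = l x → ∀ y2 ∈ Ω, l' y2 = l' x →
      ∃! y, y ∈ Ω ∧ l' y = l' y1 ∧ l y = l y2)
    (f : X → ℝ) {x : X} (hx : x ∈ Ω) (hAx : A x) :
    KTV.cexpL Ω l (KTV.cexpL Ω l' f) x = KTV.cexpL Ω l' (KTV.cexpL Ω l f) x := by
  classical
  -- the rectangle map
  have hex : ∀ y1 y2 : X, ∃ y : X, (y1 ∈ Ω → l y1 = l x → y2 ∈ Ω → l' y2 = l' x →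
      y ∈ Ω ∧ l' y = l' y1 ∧ l y = l y2) := by
    intro y1 y2
    by_cases h : y1 ∈ Ω ∧ l y1 = l x ∧ y2 ∈ Ω ∧ l' y2 = l' x
    · obtain ⟨c, hc, _⟩ := hrect x hx hAx y1 h.1 h.2.1 y2 h.2.2.1 h.2.2.2
      exact ⟨c, fun _ _ _ _ => hc⟩
    · exact ⟨x, fun h1 h2 h3 h4 => absurd ⟨h1, h2, h3, h4⟩ h⟩
  choose ρ hρ0 using hex
  have hρ : ∀ y1 ∈ Ω, l y1 = l x → ∀ y2 ∈ Ω, l' y2 = l' x →
      ρ y1 y2 ∈ Ω ∧ l' (ρ y1 y2) = l' y1 ∧ l (ρ y1 y2) = l y2 :=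
    fun y1 h1 h2 y2 h3 h4 => hρ0 y1 y2 h1 h2 h3 h4
  -- the mirrored rectangle property and map
  have hrect' : ∀ x ∈ Ω, A x → ∀ y2 ∈ Ω, l' y2 = l' x → ∀ y1 ∈ Ω, l y1 = l x →
      ∃! y, y ∈ Ω ∧ l y = l y2 ∧ l' y = l' y1 := by
    intro x hx hAx y2 hy2 hl2 y1 hy1 hl1
    obtain ⟨c, ⟨h1, h2, h3⟩, hu⟩ := hrect x hx hAx y1 hy1 hl1 y2 hy2 hl2
    exact ⟨c, ⟨h1, h3, h2⟩, fun y hy => hu y ⟨hy.1, hy.2.2, hy.2.1⟩⟩
  have hρ' : ∀ y2 ∈ Ω, l' y2 = l' x → ∀ y1 ∈ Ω, l y1 = l x →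
      ρ y1 y2 ∈ Ω ∧ l (ρ y1 y2) = l y2 ∧ l' (ρ y1 y2) = l' y1 :=
    fun y2 h3 h4 y1 h1 h2 =>
      ⟨(hρ y1 h1 h2 y2 h3 h4).1, (hρ y1 h1 h2 y2 h3 h4).2.2, (hρ y1 h1 h2 y2 h3 h4).2.1⟩
  -- classes
  set C1 := Ω.filter (fun y => l y = l x) with hC1
  set C2 := Ω.filter (fun y => l' y = l' x) with hC2
  -- inner conditional expectations
  have in1 : ∀ y1 ∈ C1, KTV.cexpL Ω l' f y1 = (∑ y2 ∈ C2, f (ρ y1 y2)) / (C2.card : ℝ) := by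
    intro y1 hy1
    rw [hC1, Finset.mem_filter] at hy1
    unfold KTV.cexpL
    have e1 := rect_sum_class hA1 hA2 hrect hx hAx ρ hρ hy1.1 hy1.2 f
    have e2 := rect_sum_class hA1 hA2 hrect hx hAx ρ hρ hy1.1 hy1.2 (fun _ => (1 : ℝ))
    simp only [Finset.sum_const, nsmul_eq_mul, mul_one] at e2
    rw [e1, e2]
  have in2 : ∀ y2 ∈ C2, KTV.cexpL Ω l f y2 = (∑ y1 ∈ C1, f (ρ y1 y2)) / (C1.card : ℝ) := by
    intro y2 hy2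
    rw [hC2, Finset.mem_filter] at hy2
    unfold KTV.cexpL
    have e1 := rect_sum_class (l := l') (l' := l) hA2 hA1 hrect' hx hAx (fun a b => ρ b a) hρ'
      hy2.1 hy2.2 f
    have e2 := rect_sum_class (l := l') (l' := l) hA2 hA1 hrect' hx hAx (fun a b => ρ b a) hρ'
      hy2.1 hy2.2 (fun _ => (1 : ℝ))
    simp only [Finset.sum_const, nsmul_eq_mul, mul_one] at e2
    rw [e1, e2]
  have out1 : KTV.cexpL Ω l (KTV.cexpL Ω l' f) x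
      = (∑ y1 ∈ C1, (∑ y2 ∈ C2, f (ρ y1 y2)) / (C2.card : ℝ)) / (C1.card : ℝ) := by
    show (∑ y ∈ Ω.filter (fun y => l y = l x), KTV.cexpL Ω l' f y) /
      ((Ω.filter (fun y => l y = l x)).card : ℝ) = _
    rw [← hC1, Finset.sum_congr rfl in1]
  have out2 : KTV.cexpL Ω l' (KTV.cexpL Ω l f) x
      = (∑ y2 ∈ C2, (∑ y1 ∈ C1, f (ρ y1 y2)) / (C1.card : ℝ)) / (C2.card : ℝ) := by
    show (∑ y ∈ Ω.filter (fun y => l' y = l' x), KTV.cexpL Ω l f y) /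
      ((Ω.filter (fun y => l' y = l' x)).card : ℝ) = _
    rw [← hC2, Finset.sum_congr rfl in2]
  rw [out1, out2, ← Finset.sum_div, ← Finset.sum_div, Finset.sum_comm, div_div, div_div,
    mul_comm]

end Rect

end KTVG
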